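import Mathlib

/-!
P328: level sums of a box of natural-number vectors, indexed by integer levels, and their
behaviour when one column is added in front.

* `box c` : the vectors `u` with `u j ≤ c j` for all `j`.
* `lev c ρ` : the vectors of the box with coordinate sum `ρ` (an integer; empty for `ρ < 0`).
* `zs c s u` : the sum of the weights `s j` over the full columns (`u j = c j`).
* `ds c s u` : the sum of the squares `s j ^ 2` over the columns with `u j + 1 = c j`.
* `wS`, `lS`, `qS` : cardinality of a level, and the sums of `zs` and of `zs ^ 2 - ds` over it.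
* `wS_cons`, `lS_cons`, `qS_cons` : the window-sum recurrences for a new first column.
-/

namespace Vale.Agent.Lib.P328.H93

open Finset

/-- The box of vectors below `c`. -/
def box {n : ℕ} (c : Fin n → ℕ) : Finset (Fin n → ℕ) :=
  Fintype.piFinset fun j => Finset.range (c j + 1)

/-- The vectors of the box with coordinate sum `ρ`. -/
def lev {n : ℕ} (c : Fin n → ℕ) (ρ : ℤ) : Finset (Fin n → ℕ) :=
  (box c).filter (fun u => (∑ j, (u j : ℤ)) = ρ)

/-- Sum of the weights of the full columns. -/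
def zs {n : ℕ} (c : Fin n → ℕ) (s : Fin n → ℝ) (u : Fin n → ℕ) : ℝ :=
  ∑ j, if u j = c j then s j else 0

/-- Sum of the squared weights of the columns that are one unit below full. -/
def ds {n : ℕ} (c : Fin n → ℕ) (s : Fin n → ℝ) (u : Fin n → ℕ) : ℝ :=
  ∑ j, if u j + 1 = c j then s j ^ 2 else 0

/-- Number of vectors on a level. -/
def wS {n : ℕ} (c : Fin n → ℕ) (ρ : ℤ) : ℝ := ((lev c ρ).card : ℝ)

/-- Sum of `zs` over a level. -/
def lS {n : ℕ} (c : Fin n → ℕ) (s : Fin n → ℝ) (ρ : ℤ) : ℝ := ∑ u ∈ lev c ρ, zs c s u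

/-- Sum of `zs ^ 2 - ds` over a level. -/
def qS {n : ℕ} (c : Fin n → ℕ) (s : Fin n → ℝ) (ρ : ℤ) : ℝ :=
  ∑ u ∈ lev c ρ, (zs c s u ^ 2 - ds c s u)

theorem mem_lev {n : ℕ} (c : Fin n → ℕ) (ρ : ℤ) (u : Fin n → ℕ) :
    u ∈ lev c ρ ↔ (∀ j, u j ≤ c j) ∧ (∑ j, (u j : ℤ)) = ρ := by
  unfold lev box
  rw [Finset.mem_filter, Fintype.mem_piFinset]
  simp only [Finset.mem_range, Nat.lt_succ_iff]

theorem wS_eq_sum {n : ℕ} (c : Fin n → ℕ) (ρ : ℤ) : wS c ρ = ∑ _u ∈ lev c ρ, (1 : ℝ) := by
  unfold wS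
  simp

/-- Splitting a level of a box with a new first column by the value of that column. -/
theorem sum_lev_cons {n : ℕ} (C : ℕ) (c : Fin n → ℕ) (r : ℤ) (F : (Fin (n + 1) → ℕ) → ℝ) :
    ∑ u ∈ lev (Fin.cons C c : Fin (n + 1) → ℕ) r, F u
      = ∑ k ∈ Finset.range (C + 1), ∑ v ∈ lev c (r - (k : ℤ)), F (Fin.cons k v) := by
  rw [Finset.sum_sigma']
  refine Finset.sum_bij' (fun u _ => (⟨u 0, Fin.tail u⟩ : (_ : ℕ) × (Fin n → ℕ)))
    (fun x _ => (Fin.cons x.1 x.2 : Fin (n + 1) → ℕ)) ?_ ?_ ?_ ?_ ?_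
  · intro u hu
    rw [mem_lev] at hu
    rw [Finset.mem_sigma, Finset.mem_range, mem_lev]
    obtain ⟨h1, h2⟩ := hu
    have h0 := h1 0
    rw [Fin.cons_zero] at h0
    refine ⟨Nat.lt_succ_of_le h0, ?_, ?_⟩
    · intro j
      have hj := h1 j.succ
      rw [Fin.cons_succ] at hj
      exact hj
    · rw [Fin.sum_univ_succ] at h2
      simp only [Fin.tail]
      linarith
  · intro x hx
    rw [Finset.mem_sigma, Finset.mem_range, mem_lev] at hx
    rw [mem_lev]
    obtain ⟨hk, h1, h2⟩ := hx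
    refine ⟨?_, ?_⟩
    · intro j
      refine Fin.cases ?_ ?_ j
      · rw [Fin.cons_zero, Fin.cons_zero]
        exact Nat.lt_succ_iff.mp hk
      · intro i
        rw [Fin.cons_succ, Fin.cons_succ]
        exact h1 i
    · rw [Fin.sum_univ_succ]
      simp only [Fin.cons_zero, Fin.cons_succ]
      linarith
  · intro u _
    exact Fin.cons_self_tail u
  · intro x _
    simp only [Fin.cons_zero, Fin.tail_cons]
  · intro u _
    simp only [Fin.cons_self_tail]

theorem zs_cons {n : ℕ} (C : ℕ) (c : Fin n → ℕ) (σ : ℝ) (s : Fin n → ℝ) (k : ℕ)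
    (v : Fin n → ℕ) :
    zs (Fin.cons C c : Fin (n + 1) → ℕ) (Fin.cons σ s : Fin (n + 1) → ℝ) (Fin.cons k v)
      = (if k = C then σ else 0) + zs c s v := by
  unfold zs
  rw [Fin.sum_univ_succ]
  simp only [Fin.cons_zero, Fin.cons_succ]

theorem ds_cons {n : ℕ} (C : ℕ) (c : Fin n → ℕ) (σ : ℝ) (s : Fin n → ℝ) (k : ℕ)
    (v : Fin n → ℕ) :
    ds (Fin.cons C c : Fin (n + 1) → ℕ) (Fin.cons σ s : Fin (n + 1) → ℝ) (Fin.cons k v)
      = (if k + 1 = C then σ ^ 2 else 0) + ds c s v := by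
  unfold ds
  rw [Fin.sum_univ_succ]
  simp only [Fin.cons_zero, Fin.cons_succ]

/-- Window-sum recurrence for the level cardinalities. -/
theorem wS_cons {n : ℕ} (C : ℕ) (c : Fin n → ℕ) (r : ℤ) :
    wS (Fin.cons C c : Fin (n + 1) → ℕ) r = ∑ k ∈ Finset.range (C + 1), wS c (r - (k : ℤ)) := by
  rw [wS_eq_sum, sum_lev_cons]
  refine Finset.sum_congr rfl (fun k _ => ?_)
  rw [wS_eq_sum]

/-- A sum over the window of a function that is supported on the last index. -/
theorem sum_range_ite_eq (C : ℕ) (a : ℕ → ℝ) :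
    ∑ k ∈ Finset.range (C + 1), (if k = C then a k else 0) = a C := by
  rw [Finset.sum_ite_eq' (Finset.range (C + 1)) C a]
  simp

/-- A sum over the window of a function that is supported on the index before the last. -/
theorem sum_range_ite_pred (C : ℕ) (a : ℕ → ℝ) :
    ∑ k ∈ Finset.range (C + 1), (if k + 1 = C then a k else 0)
      = if 1 ≤ C then a (C - 1) else 0 := by
  by_cases hC : 1 ≤ C
  · rw [if_pos hC]
    have h1 : ∀ k ∈ Finset.range (C + 1), (if k + 1 = C then a k else 0)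
        = if k = C - 1 then a k else 0 := by
      intro k _
      have : (k + 1 = C) ↔ (k = C - 1) := by omega
      simp only [this]
    rw [Finset.sum_congr rfl h1, Finset.sum_ite_eq' (Finset.range (C + 1)) (C - 1) a]
    have : C - 1 ∈ Finset.range (C + 1) := by
      rw [Finset.mem_range]
      omega
    simp [this]
  · rw [if_neg hC]
    refine Finset.sum_eq_zero (fun k _ => ?_)
    have : ¬ (k + 1 = C) := by omega
    simp [this]

/-- Window-sum recurrence for the sums of `zs`. -/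
theorem lS_cons {n : ℕ} (C : ℕ) (c : Fin n → ℕ) (σ : ℝ) (s : Fin n → ℝ) (r : ℤ) :
    lS (Fin.cons C c : Fin (n + 1) → ℕ) (Fin.cons σ s : Fin (n + 1) → ℝ) r
      = ∑ k ∈ Finset.range (C + 1), lS c s (r - (k : ℤ)) + σ * wS c (r - (C : ℤ)) := by
  unfold lS
  rw [sum_lev_cons]
  have h1 : ∀ k ∈ Finset.range (C + 1),
      ∑ v ∈ lev c (r - (k : ℤ)),
        zs (Fin.cons C c : Fin (n + 1) → ℕ) (Fin.cons σ s : Fin (n + 1) → ℝ) (Fin.cons k v)
      = ∑ v ∈ lev c (r - (k : ℤ)), zs c s v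
        + (if k = C then σ * wS c (r - (k : ℤ)) else 0) := by
    intro k _
    rw [Finset.sum_congr rfl (fun v _ => zs_cons C c σ s k v), Finset.sum_add_distrib,
      wS_eq_sum]
    by_cases hk : k = C
    · simp only [hk, if_true, Finset.sum_const, nsmul_eq_mul, mul_one]
      ring
    · simp only [hk, if_false, Finset.sum_const_zero, zero_add, add_zero]
  rw [Finset.sum_congr rfl h1, Finset.sum_add_distrib,
    sum_range_ite_eq C (fun k => σ * wS c (r - (k : ℤ)))]

/-- Window-sum recurrence for the sums of `zs ^ 2 - ds`. -/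
theorem qS_cons {n : ℕ} (C : ℕ) (c : Fin n → ℕ) (σ : ℝ) (s : Fin n → ℝ) (r : ℤ) :
    qS (Fin.cons C c : Fin (n + 1) → ℕ) (Fin.cons σ s : Fin (n + 1) → ℝ) r
      = ∑ k ∈ Finset.range (C + 1), qS c s (r - (k : ℤ)) + 2 * σ * lS c s (r - (C : ℤ))
        + σ ^ 2 * (wS c (r - (C : ℤ)) - if 1 ≤ C then wS c (r - (C : ℤ) + 1) else 0) := by
  unfold qS
  rw [sum_lev_cons]
  have h1 : ∀ k ∈ Finset.range (C + 1),
      ∑ v ∈ lev c (r - (k : ℤ)),
        (zs (Fin.cons C c : Fin (n + 1) → ℕ) (Fin.cons σ s : Fin (n + 1) → ℝ) (Fin.cons k v) ^ 2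
          - ds (Fin.cons C c : Fin (n + 1) → ℕ) (Fin.cons σ s : Fin (n + 1) → ℝ) (Fin.cons k v))
      = ∑ v ∈ lev c (r - (k : ℤ)), (zs c s v ^ 2 - ds c s v)
        + (if k = C then 2 * σ * lS c s (r - (k : ℤ)) + σ ^ 2 * wS c (r - (k : ℤ)) else 0)
        - (if k + 1 = C then σ ^ 2 * wS c (r - (k : ℤ)) else 0) := by
    intro k _
    have h2 : ∀ v ∈ lev c (r - (k : ℤ)),
        (zs (Fin.cons C c : Fin (n + 1) → ℕ) (Fin.cons σ s : Fin (n + 1) → ℝ) (Fin.cons k v) ^ 2
          - ds (Fin.cons C c : Fin (n + 1) → ℕ) (Fin.cons σ s : Fin (n + 1) → ℝ) (Fin.cons k v))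
        = (zs c s v ^ 2 - ds c s v)
          + ((if k = C then 2 * σ * zs c s v + σ ^ 2 * 1 else 0)
            - (if k + 1 = C then σ ^ 2 * 1 else 0)) := by
      intro v _
      rw [zs_cons, ds_cons]
      by_cases hk : k = C
      · have hk' : ¬ (C + 1 = C) := by omega
        simp only [hk, hk', if_true, if_false]
        ring
      · by_cases hk' : k + 1 = C
        · simp only [hk, hk', if_true, if_false]
          ring
        · simp only [hk, hk', if_false]
          ring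
    rw [Finset.sum_congr rfl h2]
    simp only [Finset.sum_add_distrib, Finset.sum_sub_distrib]
    have h3 : ∑ v ∈ lev c (r - (k : ℤ)), (if k = C then 2 * σ * zs c s v + σ ^ 2 * 1 else 0)
        = if k = C then 2 * σ * lS c s (r - (k : ℤ)) + σ ^ 2 * wS c (r - (k : ℤ)) else 0 := by
      by_cases hk : k = C
      · simp only [hk, if_true]
        rw [Finset.sum_add_distrib, ← Finset.mul_sum, ← Finset.mul_sum, wS_eq_sum]
        rfl
      · simp only [hk, if_false, Finset.sum_const_zero]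
    have h4 : ∑ v ∈ lev c (r - (k : ℤ)), (if k + 1 = C then σ ^ 2 * 1 else 0)
        = if k + 1 = C then σ ^ 2 * wS c (r - (k : ℤ)) else 0 := by
      by_cases hk : k + 1 = C
      · simp only [hk, if_true]
        rw [← Finset.mul_sum, wS_eq_sum]
      · simp only [hk, if_false, Finset.sum_const_zero]
    rw [h3, h4]
    ring
  rw [Finset.sum_congr rfl h1, Finset.sum_sub_distrib, Finset.sum_add_distrib,
    sum_range_ite_eq C (fun k => 2 * σ * lS c s (r - (k : ℤ)) + σ ^ 2 * wS c (r - (k : ℤ))),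
    sum_range_ite_pred C (fun k => σ ^ 2 * wS c (r - (k : ℤ)))]
  by_cases hC : 1 ≤ C
  · simp only [hC, if_true]
    have hcast : r - ((C - 1 : ℕ) : ℤ) = r - (C : ℤ) + 1 := by
      rw [Nat.cast_sub hC]
      push_cast
      ring
    rw [hcast]
    ring
  · simp only [hC, if_false]
    ring

end Vale.Agent.Lib.P328.H93
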