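import Mathlib

/-!
P328: the one-column induction step for the level sequences of a box.

For integer-indexed sequences `w`, `l`, `q` (level counts, sums of the full-column statistic
and its corrected second moment) the invariant `Inv` says that `w` is positive exactly on
`[0, top]`, that `l`, `q` vanish outside, and that the three-variable quadratic form `TT`
satisfies `w ρ * TT ρ ≤ xi ρ ^ 2` at every level. The theorem `Inv.step` shows that the
invariant is preserved by the window-sum recurrences `Wn`, `Ln`, `Qn` of a new column with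
capacity `C` and weight `σ`, given the one-dimensional window inequality `WindowStmt`.
-/

namespace Vale.Agent.Lib.P328.H93

open Finset

/-- The one-dimensional window inequality (a weighted variance bound along a path with a
log-concave weight), in a division-free form. -/
def WindowStmt : Prop :=
  ∀ (m : ℕ) (w xi P : ℕ → ℝ) (σ : ℝ),
    (∀ i, i ≤ m → 0 < w i) → 0 ≤ w (m + 1) → (∀ i, i < m → 0 ≤ P i) →
    (∀ i, i < m → w i * w (i + 2) ≤ w (i + 1) ^ 2) →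
    (∀ i, i < m → (xi (i + 1) * w i - xi i * w (i + 1)) ^ 2
      ≤ (w (i + 1) ^ 2 - w i * w (i + 2)) * (w i * P i)) →
    (∑ i ∈ Finset.range (m + 1), w i)
        * (∑ i ∈ Finset.range (m + 1), xi i ^ 2 / w i + 2 * σ * xi 0 + σ ^ 2 * w 0)
      - (∑ i ∈ Finset.range (m + 1), xi i + σ * w 0) ^ 2
      ≤ (∑ i ∈ Finset.range (m + 1), w i) * (∑ i ∈ Finset.range m, P i + σ ^ 2 * w 1)

section seq

variable (w l q : ℤ → ℝ)

/-- The linear form of level `ρ`. -/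
def xi (ρ : ℤ) (x y z : ℝ) : ℝ := w ρ * x + w (ρ + 1) * y + l ρ * z

/-- The quadratic form of level `ρ`. -/
def TT (ρ : ℤ) (x y z : ℝ) : ℝ :=
  w ρ * x ^ 2 + 2 * w (ρ + 1) * x * y + w (ρ + 2) * y ^ 2 + 2 * l ρ * x * z
    + 2 * l (ρ + 1) * y * z + q ρ * z ^ 2

/-- The binary form `xi ^ 2 - w * TT` of level `ρ` (it does not depend on `x`). -/
def Form (ρ : ℤ) (y z : ℝ) : ℝ :=
  (w (ρ + 1) ^ 2 - w ρ * w (ρ + 2)) * y ^ 2
    - 2 * (w ρ * l (ρ + 1) - w (ρ + 1) * l ρ) * y * z + (l ρ ^ 2 - w ρ * q ρ) * z ^ 2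

theorem form_eq (ρ : ℤ) (x y z : ℝ) :
    Form w l q ρ y z = xi w l ρ x y z ^ 2 - w ρ * TT w l q ρ x y z := by
  unfold Form xi TT
  ring

/-- Level counts after adding a column of capacity `C`. -/
def Wn (C : ℕ) (r : ℤ) : ℝ := ∑ k ∈ Finset.range (C + 1), w (r - (k : ℤ))

/-- First-moment sequence after adding a column of capacity `C` and weight `σ`. -/
def Ln (C : ℕ) (σ : ℝ) (r : ℤ) : ℝ :=
  ∑ k ∈ Finset.range (C + 1), l (r - (k : ℤ)) + σ * w (r - (C : ℤ))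

/-- Second-moment sequence after adding a column of capacity `C` and weight `σ`. -/
def Qn (C : ℕ) (σ : ℝ) (r : ℤ) : ℝ :=
  ∑ k ∈ Finset.range (C + 1), q (r - (k : ℤ)) + 2 * σ * l (r - (C : ℤ))
    + σ ^ 2 * (w (r - (C : ℤ)) - if 1 ≤ C then w (r - (C : ℤ) + 1) else 0)

end seq

theorem sum_TT (f0 f1 f2 g0 g1 h0 : ℕ → ℝ) (s : Finset ℕ) (x y z : ℝ) :
    ∑ k ∈ s, (f0 k * x ^ 2 + 2 * f1 k * x * y + f2 k * y ^ 2 + 2 * g0 k * x * z
        + 2 * g1 k * y * z + h0 k * z ^ 2)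
      = (∑ k ∈ s, f0 k) * x ^ 2 + 2 * (∑ k ∈ s, f1 k) * x * y + (∑ k ∈ s, f2 k) * y ^ 2
        + 2 * (∑ k ∈ s, g0 k) * x * z + 2 * (∑ k ∈ s, g1 k) * y * z
        + (∑ k ∈ s, h0 k) * z ^ 2 := by
  induction s using Finset.induction_on with
  | empty => simp
  | insert a s ha ih =>
    rw [Finset.sum_insert ha, ih, Finset.sum_insert ha, Finset.sum_insert ha,
      Finset.sum_insert ha, Finset.sum_insert ha, Finset.sum_insert ha, Finset.sum_insert ha]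
    ring

theorem sum_xi (f0 f1 g0 : ℕ → ℝ) (s : Finset ℕ) (x y z : ℝ) :
    ∑ k ∈ s, (f0 k * x + f1 k * y + g0 k * z)
      = (∑ k ∈ s, f0 k) * x + (∑ k ∈ s, f1 k) * y + (∑ k ∈ s, g0 k) * z := by
  rw [Finset.sum_add_distrib, Finset.sum_add_distrib, Finset.sum_mul, Finset.sum_mul,
    Finset.sum_mul]

theorem xi_new (w l : ℤ → ℝ) (C : ℕ) (σ : ℝ) (r : ℤ) (x y z : ℝ) :
    xi (Wn w C) (Ln w l C σ) r x y z
      = ∑ k ∈ Finset.range (C + 1), xi w l (r - (k : ℤ)) x y z + σ * z * w (r - (C : ℤ)) := by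
  have h1 : ∀ k : ℕ, r + 1 - (k : ℤ) = r - (k : ℤ) + 1 := fun k => by ring
  unfold xi Wn Ln
  simp only [h1]
  rw [sum_xi]
  ring

theorem TT_new (w l q : ℤ → ℝ) (C : ℕ) (σ : ℝ) (r : ℤ) (x y z : ℝ) :
    TT (Wn w C) (Ln w l C σ) (Qn w l q C σ) r x y z
      = ∑ k ∈ Finset.range (C + 1), TT w l q (r - (k : ℤ)) x y z
        + 2 * (σ * z) * xi w l (r - (C : ℤ)) x y z
        + (σ * z) ^ 2 * (w (r - (C : ℤ)) - if 1 ≤ C then w (r - (C : ℤ) + 1) else 0) := by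
  have h1 : ∀ k : ℕ, r + 1 - (k : ℤ) = r - (k : ℤ) + 1 := fun k => by ring
  have h2 : ∀ k : ℕ, r + 2 - (k : ℤ) = r - (k : ℤ) + 2 := fun k => by ring
  unfold TT xi Wn Ln Qn
  simp only [h1, h2]
  rw [sum_TT]
  ring

/-- A binary quadratic form that is nonnegative has nonpositive discriminant. -/
theorem binform (A B G : ℝ) (h : ∀ y z : ℝ, 0 ≤ A * y ^ 2 - 2 * B * y * z + G * z ^ 2) :
    B ^ 2 ≤ A * G := by
  have hA : 0 ≤ A := by
    have := h 1 0
    simpa using this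
  by_cases hA0 : A = 0
  · have hB : B = 0 := by
      by_contra hB
      have h1 := h ((G + 1) / (2 * B)) 1
      have h2 : 2 * B * ((G + 1) / (2 * B)) = G + 1 := by
        field_simp
      rw [hA0] at h1
      nlinarith [h1, h2]
    rw [hB, hA0]
    simp
  · have hApos : 0 < A := lt_of_le_of_ne hA (Ne.symm hA0)
    have h2 := h B A
    have h3 : 0 ≤ A * (A * G - B ^ 2) := by nlinarith [h2]
    have h4 : 0 ≤ A * G - B ^ 2 := by
      by_contra hneg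
      push_neg at hneg
      nlinarith [mul_pos hApos (neg_pos.mpr hneg)]
    linarith

/-- The invariant of the column induction. -/
structure Inv (w l q : ℤ → ℝ) (top : ℤ) : Prop where
  top_nonneg : 0 ≤ top
  pos : ∀ ρ, 0 ≤ ρ → ρ ≤ top → 0 < w ρ
  zw : ∀ ρ, (ρ < 0 ∨ top < ρ) → w ρ = 0
  zl : ∀ ρ, (ρ < 0 ∨ top < ρ) → l ρ = 0
  zq : ∀ ρ, (ρ < 0 ∨ top < ρ) → q ρ = 0
  S : ∀ ρ x y z, w ρ * TT w l q ρ x y z ≤ xi w l ρ x y z ^ 2

namespace Inv

variable {w l q : ℤ → ℝ} {top : ℤ}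

theorem w_nonneg (h : Inv w l q top) (ρ : ℤ) : 0 ≤ w ρ := by
  by_cases h1 : 0 ≤ ρ ∧ ρ ≤ top
  · exact le_of_lt (h.pos ρ h1.1 h1.2)
  · have : ρ < 0 ∨ top < ρ := by
      by_contra hc
      push_neg at hc
      exact h1 ⟨hc.1, hc.2⟩
    rw [h.zw ρ this]

theorem form_nonneg (h : Inv w l q top) (ρ : ℤ) (y z : ℝ) : 0 ≤ Form w l q ρ y z := by
  rw [form_eq w l q ρ 0 y z]
  have := h.S ρ 0 y z
  linarith

theorem alpha_nonneg (h : Inv w l q top) (ρ : ℤ) : w ρ * w (ρ + 2) ≤ w (ρ + 1) ^ 2 := by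
  have := h.form_nonneg ρ 1 0
  unfold Form at this
  nlinarith [this]

theorem disc (h : Inv w l q top) (ρ : ℤ) :
    (w ρ * l (ρ + 1) - w (ρ + 1) * l ρ) ^ 2
      ≤ (w (ρ + 1) ^ 2 - w ρ * w (ρ + 2)) * (l ρ ^ 2 - w ρ * q ρ) :=
  binform _ _ _ (fun y z => h.form_nonneg ρ y z)

theorem TT_zero (h : Inv w l q top) (ρ : ℤ) (hρ : ρ < -2 ∨ top < ρ) (x y z : ℝ) :
    TT w l q ρ x y z = 0 := by
  have h0 : w ρ = 0 := h.zw ρ (by omega)
  have h1 : w (ρ + 1) = 0 := h.zw (ρ + 1) (by omega)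
  have h2 : w (ρ + 2) = 0 := h.zw (ρ + 2) (by omega)
  have h3 : l ρ = 0 := h.zl ρ (by omega)
  have h4 : l (ρ + 1) = 0 := h.zl (ρ + 1) (by omega)
  have h5 : q ρ = 0 := h.zq ρ (by omega)
  unfold TT
  rw [h0, h1, h2, h3, h4, h5]
  ring

theorem xi_zero (h : Inv w l q top) (ρ : ℤ) (hρ : ρ < -1 ∨ top < ρ) (x y z : ℝ) :
    xi w l ρ x y z = 0 := by
  have h0 : w ρ = 0 := h.zw ρ (by omega)
  have h1 : w (ρ + 1) = 0 := h.zw (ρ + 1) (by omega)
  have h3 : l ρ = 0 := h.zl ρ (by omega)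
  unfold xi
  rw [h0, h1, h3]
  ring

end Inv

end Vale.Agent.Lib.P328.H93
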