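import Mathlib
import Vale.Agent.Lib.P328.helper30.Window
import Vale.Agent.Lib.P328.helper74.ChainDefs
import Vale.Agent.Lib.P328.helper93.LevelStep

/-!
P328: the column step `Lor_step` for the level sequences of a box (statement of
`helper74.ChainDefs`), proved from the window lemma `H30.window_lemma`.

* `windowStmt` : the division-free window inequality.
* `Inv.core` : the window inequality applied to a window inside the support.
* `Inv.step` : the invariant is preserved when a column is added.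
* `Lor_step` : the same statement for `helper74.Lor`.
-/

namespace Vale.Agent.Lib.P328.H93

open Finset

/-- The division-free window inequality, from the window lemma. -/
theorem windowStmt : WindowStmt := by
  intro m w xi P σ hw hw1 hP hlc hinc
  have he : ∀ τ, τ < m → 0 ≤ P τ / w (τ + 1) := fun τ h =>
    div_nonneg (hP τ h) (le_of_lt (hw (τ + 1) (by omega)))
  have hR : ∀ τ, τ < m → w (τ + 2) * w τ ≤ w (τ + 1) ^ 2 := fun τ h => by
    have := hlc τ h
    linarith [mul_comm (w (τ + 2)) (w τ)]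
  have hinc' : ∀ τ, τ < m → (xi (τ + 1) / w (τ + 1) - xi τ / w τ) ^ 2
      ≤ (w (τ + 1) / w τ - w (τ + 2) / w (τ + 1)) * (P τ / w (τ + 1)) := by
    intro τ h
    have h0 : 0 < w τ := hw τ (le_of_lt h)
    have h1 : 0 < w (τ + 1) := hw (τ + 1) (by omega)
    have e1 : xi (τ + 1) / w (τ + 1) - xi τ / w τ
        = (xi (τ + 1) * w τ - xi τ * w (τ + 1)) / (w τ * w (τ + 1)) := by
      field_simp
    have e2 : (w (τ + 1) / w τ - w (τ + 2) / w (τ + 1)) * (P τ / w (τ + 1))
        = ((w (τ + 1) ^ 2 - w τ * w (τ + 2)) * (w τ * P τ)) / (w τ * w (τ + 1)) ^ 2 := by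
      field_simp
    rw [e1, e2, div_pow]
    exact div_le_div_of_nonneg_right (hinc τ h) (by positivity)
  have h := Vale.Agent.Lib.P328.H30.window_lemma m w (fun i => xi i / w i)
    (fun i => P i / w (i + 1)) σ hw hw1 he hR hinc'
  have eA : ∑ ρ ∈ Finset.range (m + 1), w ρ * (xi ρ / w ρ + if ρ = 0 then σ else 0) ^ 2
      = ∑ i ∈ Finset.range (m + 1), xi i ^ 2 / w i + 2 * σ * xi 0 + σ ^ 2 * w 0 := by
    rw [Finset.sum_range_succ' _ m, Finset.sum_range_succ' (fun i => xi i ^ 2 / w i) m]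
    have h1 : ∀ i ∈ Finset.range m,
        w (i + 1) * (xi (i + 1) / w (i + 1) + if i + 1 = 0 then σ else 0) ^ 2
          = xi (i + 1) ^ 2 / w (i + 1) := by
      intro i hi
      have hpos : 0 < w (i + 1) := hw (i + 1) (by have := Finset.mem_range.mp hi; omega)
      simp only [Nat.succ_ne_zero, if_false, add_zero]
      field_simp
    rw [Finset.sum_congr rfl h1]
    have h0 : 0 < w 0 := hw 0 (Nat.zero_le m)
    simp only [if_true]
    field_simp
    ring
  have eB : ∑ ρ ∈ Finset.range (m + 1), w ρ * (xi ρ / w ρ + if ρ = 0 then σ else 0)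
      = ∑ i ∈ Finset.range (m + 1), xi i + σ * w 0 := by
    rw [Finset.sum_range_succ' _ m, Finset.sum_range_succ' (fun i => xi i) m]
    have h1 : ∀ i ∈ Finset.range m,
        w (i + 1) * (xi (i + 1) / w (i + 1) + if i + 1 = 0 then σ else 0) = xi (i + 1) := by
      intro i hi
      have hpos : 0 < w (i + 1) := hw (i + 1) (by have := Finset.mem_range.mp hi; omega)
      simp only [Nat.succ_ne_zero, if_false, add_zero]
      field_simp
    rw [Finset.sum_congr rfl h1]
    have h0 : 0 < w 0 := hw 0 (Nat.zero_le m)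
    simp only [if_true]
    field_simp
    ring
  have eC : ∑ τ ∈ Finset.range m, w (τ + 1) * (P τ / w (τ + 1)) = ∑ τ ∈ Finset.range m, P τ := by
    refine Finset.sum_congr rfl (fun τ hτ => ?_)
    have hpos : 0 < w (τ + 1) := hw (τ + 1) (by have := Finset.mem_range.mp hτ; omega)
    field_simp
  rw [eA, eB, eC] at h
  exact h

/-- Reflection of a window sum. -/
theorem sum_window_reflect (f : ℤ → ℝ) (r : ℤ) (C : ℕ) :
    ∑ k ∈ Finset.range (C + 1), f (r - (k : ℤ))
      = ∑ j ∈ Finset.range (C + 1), f (r - (C : ℤ) + (j : ℤ)) := by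
  rw [← Finset.sum_range_reflect (fun j => f (r - (C : ℤ) + (j : ℤ))) (C + 1)]
  refine Finset.sum_congr rfl (fun k hk => ?_)
  have hk' : k ≤ C := by
    have := Finset.mem_range.mp hk
    omega
  have e : r - (C : ℤ) + ((C + 1 - 1 - k : ℕ) : ℤ) = r - (k : ℤ) := by omega
  rw [e]

/-- Dropping the vanishing top part of a sum. -/
theorem sum_trunc (f : ℕ → ℝ) (N m : ℕ) (hN : N ≤ m) (hz : ∀ j, N < j → j ≤ m → f j = 0) :
    ∑ j ∈ Finset.range (m + 1), f j = ∑ j ∈ Finset.range (N + 1), f j := by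
  symm
  refine Finset.sum_subset (Finset.range_subset_range.mpr (by omega)) (fun j hj hj' => ?_)
  have h1 := Finset.mem_range.mp hj
  have h2 : ¬ j < N + 1 := fun hlt => hj' (Finset.mem_range.mpr hlt)
  exact hz j (by omega) (by omega)

/-- A window that starts below level `0`, for a function vanishing below level `-2`. -/
theorem sum_window_neg (f : ℤ → ℝ) (R d : ℕ) (hd : 1 ≤ d) (hz : ∀ ρ : ℤ, ρ ≤ -3 → f ρ = 0) :
    ∑ k ∈ Finset.range (R + d + 1), f ((R : ℤ) - (k : ℤ))
      = ∑ j ∈ Finset.range (R + 1), f (j : ℤ) + (f (-1) + if 2 ≤ d then f (-2) else 0) := by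
  have e : R + d + 1 = (R + 1) + d := by ring
  rw [e, Finset.sum_range_add]
  congr 1
  · have h1 := sum_window_reflect f (R : ℤ) R
    rw [h1]
    refine Finset.sum_congr rfl (fun j _ => ?_)
    rw [sub_self, zero_add]
  · have h1 : ∀ x ∈ Finset.range d, f ((R : ℤ) - ((R + 1 + x : ℕ) : ℤ)) = f (-1 - (x : ℤ)) := by
      intro x _
      have e1 : (R : ℤ) - ((R + 1 + x : ℕ) : ℤ) = -1 - (x : ℤ) := by
        push_cast
        ring
      rw [e1]
    rw [Finset.sum_congr rfl h1]
    by_cases h2 : 2 ≤ d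
    · rw [if_pos h2]
      have h3 : ∑ x ∈ Finset.range d, f (-1 - (x : ℤ)) = ∑ x ∈ Finset.range 2, f (-1 - (x : ℤ)) := by
        symm
        refine Finset.sum_subset (Finset.range_subset_range.mpr h2) (fun x hx hx' => hz _ ?_)
        have h4 : ¬ x < 2 := fun hlt => hx' (Finset.mem_range.mpr hlt)
        omega
      rw [h3, Finset.sum_range_succ, Finset.sum_range_one]
      norm_num
    · have hd1 : d = 1 := by omega
      subst hd1
      rw [if_neg h2, Finset.sum_range_one]
      norm_num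

namespace Inv

variable {w l q : ℤ → ℝ} {top : ℤ}

/-- The window inequality on a window `[a, a + m]` whose bottom lies in the support. -/
theorem core (hwin : WindowStmt) (h : Inv w l q top) (a : ℤ) (ha : 0 ≤ a) (ha' : a ≤ top)
    (m : ℕ) (σ x y z : ℝ) :
    (∑ j ∈ Finset.range (m + 1), w (a + (j : ℤ)))
        * (∑ j ∈ Finset.range (m + 1), TT w l q (a + (j : ℤ)) x y z + 2 * σ * xi w l a x y z
            + σ ^ 2 * (w a - w (a + 1)))
      ≤ (∑ j ∈ Finset.range (m + 1), xi w l (a + (j : ℤ)) x y z + σ * w a) ^ 2 := by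
  obtain ⟨N, hN1, hN2, hNz⟩ : ∃ N : ℕ, N ≤ m ∧ a + (N : ℤ) ≤ top ∧
      ∀ j : ℕ, N < j → j ≤ m → top < a + (j : ℤ) := by
    refine ⟨min m (top - a).toNat, min_le_left _ _, ?_, ?_⟩
    · have := min_le_right m (top - a).toNat
      omega
    · intro j h1 h2
      omega
  have eW : ∑ j ∈ Finset.range (m + 1), w (a + (j : ℤ))
      = ∑ j ∈ Finset.range (N + 1), w (a + (j : ℤ)) :=
    sum_trunc (fun j => w (a + (j : ℤ))) N m hN1 (fun j h1 h2 => h.zw _ (Or.inr (hNz j h1 h2)))
  have eT : ∑ j ∈ Finset.range (m + 1), TT w l q (a + (j : ℤ)) x y z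
      = ∑ j ∈ Finset.range (N + 1), TT w l q (a + (j : ℤ)) x y z :=
    sum_trunc (fun j => TT w l q (a + (j : ℤ)) x y z) N m hN1
      (fun j h1 h2 => h.TT_zero _ (Or.inr (hNz j h1 h2)) x y z)
  have eX : ∑ j ∈ Finset.range (m + 1), xi w l (a + (j : ℤ)) x y z
      = ∑ j ∈ Finset.range (N + 1), xi w l (a + (j : ℤ)) x y z :=
    sum_trunc (fun j => xi w l (a + (j : ℤ)) x y z) N m hN1
      (fun j h1 h2 => h.xi_zero _ (Or.inr (hNz j h1 h2)) x y z)
  rw [eW, eT, eX]
  have hpos : ∀ i : ℕ, i ≤ N → 0 < w (a + (i : ℤ)) := fun i hi =>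
    h.pos _ (by omega) (by omega)
  have hwin' := hwin N (fun i => w (a + (i : ℤ))) (fun i => xi w l (a + (i : ℤ)) x y z)
    (fun i => Form w l q (a + (i : ℤ)) y z / w (a + (i : ℤ))) σ hpos (h.w_nonneg _)
    (fun i hi => div_nonneg (h.form_nonneg _ y z) (le_of_lt (hpos i (le_of_lt hi))))
    (fun i hi => by
      have e1 : a + ((i + 1 : ℕ) : ℤ) = a + (i : ℤ) + 1 := by push_cast; ring
      have e2 : a + ((i + 2 : ℕ) : ℤ) = a + (i : ℤ) + 2 := by push_cast; ring
      simp only [e1, e2]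
      exact h.alpha_nonneg (a + (i : ℤ)))
    (fun i hi => by
      have e1 : a + ((i + 1 : ℕ) : ℤ) = a + (i : ℤ) + 1 := by push_cast; ring
      have e2 : a + ((i + 2 : ℕ) : ℤ) = a + (i : ℤ) + 2 := by push_cast; ring
      have e3 : a + (i : ℤ) + 1 + 1 = a + (i : ℤ) + 2 := by ring
      have hw0 : 0 < w (a + (i : ℤ)) := hpos i (le_of_lt hi)
      have e4 : w (a + (i : ℤ)) * (Form w l q (a + (i : ℤ)) y z / w (a + (i : ℤ)))
          = Form w l q (a + (i : ℤ)) y z := by
        field_simp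
      simp only [e1, e2]
      rw [e4]
      have hd := h.disc (a + (i : ℤ))
      unfold xi Form
      rw [e3]
      nlinarith [mul_nonneg (sub_nonneg.mpr hd) (sq_nonneg z)])
  simp only [Nat.cast_zero, add_zero] at hwin'
  have e1' : a + ((1 : ℕ) : ℤ) = a + 1 := by push_cast; ring
  rw [e1'] at hwin'
  have eTT : ∀ i ∈ Finset.range (N + 1), TT w l q (a + (i : ℤ)) x y z
      = xi w l (a + (i : ℤ)) x y z ^ 2 / w (a + (i : ℤ))
        - Form w l q (a + (i : ℤ)) y z / w (a + (i : ℤ)) := by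
    intro i hi
    have hw0 : 0 < w (a + (i : ℤ)) := hpos i (by have := Finset.mem_range.mp hi; omega)
    rw [form_eq w l q (a + (i : ℤ)) x y z]
    field_simp
    ring
  rw [Finset.sum_congr rfl eTT, Finset.sum_sub_distrib,
    Finset.sum_range_succ (fun i => Form w l q (a + (i : ℤ)) y z / w (a + (i : ℤ))) N]
  have hSW : 0 ≤ ∑ j ∈ Finset.range (N + 1), w (a + (j : ℤ)) :=
    Finset.sum_nonneg (fun j _ => h.w_nonneg _)
  have hPN : 0 ≤ Form w l q (a + (N : ℤ)) y z / w (a + (N : ℤ)) :=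
    div_nonneg (h.form_nonneg _ y z) (h.w_nonneg _)
  nlinarith [hwin', mul_nonneg hSW hPN]

theorem xi_m1 (h : Inv w l q top) (x y z : ℝ) : xi w l (-1) x y z = w 0 * y := by
  unfold xi
  rw [h.zw (-1) (by omega), h.zl (-1) (by omega)]
  norm_num

theorem TT_m1 (h : Inv w l q top) (x y z : ℝ) :
    TT w l q (-1) x y z = 2 * w 0 * x * y + w 1 * y ^ 2 + 2 * l 0 * y * z := by
  unfold TT
  rw [h.zw (-1) (by omega), h.zl (-1) (by omega), h.zq (-1) (by omega)]
  norm_num

theorem TT_m2 (h : Inv w l q top) (x y z : ℝ) : TT w l q (-2) x y z = w 0 * y ^ 2 := by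
  unfold TT
  have e1 : (-2 : ℤ) + 1 = -1 := by norm_num
  have e2 : (-2 : ℤ) + 2 = 0 := by norm_num
  rw [e1, e2, h.zw (-2) (by omega), h.zw (-1) (by omega), h.zl (-2) (by omega),
    h.zl (-1) (by omega), h.zq (-2) (by omega)]
  ring

/-- The column step at a level `R < C` (the window starts below level `0`). -/
theorem step_low (hwin : WindowStmt) (h : Inv w l q top) (R d : ℕ) (hd : 1 ≤ d) (σ x y z : ℝ) :
    (∑ k ∈ Finset.range (R + d + 1), w ((R : ℤ) - (k : ℤ)))
        * (∑ k ∈ Finset.range (R + d + 1), TT w l q ((R : ℤ) - (k : ℤ)) x y z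
            + 2 * (σ * z) * xi w l ((R : ℤ) - ((R + d : ℕ) : ℤ)) x y z
            + (σ * z) ^ 2 * (w ((R : ℤ) - ((R + d : ℕ) : ℤ))
                - w ((R : ℤ) - ((R + d : ℕ) : ℤ) + 1)))
      ≤ (∑ k ∈ Finset.range (R + d + 1), xi w l ((R : ℤ) - (k : ℤ)) x y z
          + σ * z * w ((R : ℤ) - ((R + d : ℕ) : ℤ))) ^ 2 := by
  rw [sum_window_neg (fun ρ => w ρ) R d hd (fun ρ hρ => h.zw ρ (by omega)),
    sum_window_neg (fun ρ => TT w l q ρ x y z) R d hd
      (fun ρ hρ => h.TT_zero ρ (Or.inl (by omega)) x y z),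
    sum_window_neg (fun ρ => xi w l ρ x y z) R d hd
      (fun ρ hρ => h.xi_zero ρ (Or.inl (by omega)) x y z)]
  have hc := h.core hwin 0 le_rfl h.top_nonneg R y x y z
  simp only [zero_add] at hc
  have hx0 : xi w l 0 x y z = w 0 * x + w 1 * y + l 0 * z := by
    unfold xi
    rw [zero_add]
  rw [hx0] at hc
  have hSW : 0 ≤ ∑ j ∈ Finset.range (R + 1), w (j : ℤ) :=
    Finset.sum_nonneg (fun j _ => h.w_nonneg _)
  have hw0 : 0 ≤ w 0 := h.w_nonneg 0
  have hwm1 : w (-1) = 0 := h.zw (-1) (by omega)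
  have hwm2 : w (-2) = 0 := h.zw (-2) (by omega)
  rw [h.xi_m1, h.TT_m1, h.TT_m2, hwm1, hwm2, h.xi_zero (-2) (Or.inl (by omega))]
  by_cases h2 : 2 ≤ d
  · have hρ : (R : ℤ) - ((R + d : ℕ) : ℤ) ≤ -2 := by
      push_cast
      omega
    rw [h.xi_zero ((R : ℤ) - ((R + d : ℕ) : ℤ)) (Or.inl (by omega)),
      h.zw ((R : ℤ) - ((R + d : ℕ) : ℤ)) (Or.inl (by omega)),
      h.zw ((R : ℤ) - ((R + d : ℕ) : ℤ) + 1) (Or.inl (by omega))]
    simp only [h2, if_true]
    nlinarith [hc]
  · have hd1 : d = 1 := by omega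
    subst hd1
    have hρ : (R : ℤ) - ((R + 1 : ℕ) : ℤ) = -1 := by
      push_cast
      ring
    rw [hρ, h.xi_m1, hwm1]
    have e0 : (-1 : ℤ) + 1 = 0 := by norm_num
    rw [e0]
    simp only [h2, if_false]
    nlinarith [hc, mul_nonneg hSW (mul_nonneg hw0 (sq_nonneg (y - σ * z)))]

/-- The invariant is preserved when a column of capacity `C` and weight `σ` is added. -/
theorem step (hwin : WindowStmt) (h : Inv w l q top) (C : ℕ) (σ : ℝ) :
    Inv (Wn w C) (Ln w l C σ) (Qn w l q C σ) (top + (C : ℤ)) := by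
  have htop := h.top_nonneg
  have hzW : ∀ r : ℤ, (r < 0 ∨ top + (C : ℤ) < r) → Wn w C r = 0 := by
    intro r hr
    unfold Wn
    refine Finset.sum_eq_zero (fun k hk => h.zw _ ?_)
    have := Finset.mem_range.mp hk
    omega
  refine ⟨by omega, ?_, hzW, ?_, ?_, ?_⟩
  · intro r h0 h1
    unfold Wn
    exact Finset.sum_pos' (fun k _ => h.w_nonneg _)
      ⟨(r - top).toNat, Finset.mem_range.mpr (by omega), h.pos _ (by omega) (by omega)⟩
  · intro r hr
    unfold Ln
    rw [Finset.sum_eq_zero (fun k hk => h.zl _ (by have := Finset.mem_range.mp hk; omega)),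
      h.zw (r - (C : ℤ)) (by omega)]
    ring
  · intro r hr
    unfold Qn
    rw [Finset.sum_eq_zero (fun k hk => h.zq _ (by have := Finset.mem_range.mp hk; omega)),
      h.zw (r - (C : ℤ)) (by omega), h.zl (r - (C : ℤ)) (by omega)]
    by_cases hC : 1 ≤ C
    · rw [if_pos hC, h.zw (r - (C : ℤ) + 1) (by omega)]
      ring
    · rw [if_neg hC]
      ring
  · intro r x y z
    rw [TT_new, xi_new]
    by_cases hr : r < 0
    · rw [hzW r (Or.inl hr), zero_mul]
      exact sq_nonneg _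
    have hr0 : 0 ≤ r := not_lt.mp hr
    by_cases hC0 : C = 0
    · subst hC0
      unfold Wn
      simp only [zero_add, Finset.sum_range_one, Nat.cast_zero, sub_zero]
      have hS := h.S r x y z
      have hif : ¬ (1 ≤ 0) := by omega
      simp only [hif, if_false]
      nlinarith [hS]
    have hC1 : 1 ≤ C := Nat.one_le_iff_ne_zero.mpr hC0
    simp only [hC1, if_true]
    by_cases hCr : (C : ℤ) ≤ r
    · unfold Wn
      rw [sum_window_reflect (fun ρ => w ρ) r C,
        sum_window_reflect (fun ρ => TT w l q ρ x y z) r C,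
        sum_window_reflect (fun ρ => xi w l ρ x y z) r C]
      by_cases hat : r - (C : ℤ) ≤ top
      · exact h.core hwin (r - (C : ℤ)) (by omega) hat C (σ * z) x y z
      · have hW0 : ∑ j ∈ Finset.range (C + 1), w (r - (C : ℤ) + (j : ℤ)) = 0 :=
          Finset.sum_eq_zero (fun j _ => h.zw (r - (C : ℤ) + (j : ℤ)) (Or.inr (by omega)))
        rw [hW0, zero_mul]
        exact sq_nonneg _
    · obtain ⟨R, hR⟩ := Int.eq_ofNat_of_zero_le hr0
      subst hR
      have hRC : R < C := by omega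
      obtain ⟨d, hd⟩ : ∃ d : ℕ, C = R + d := ⟨C - R, by omega⟩
      subst hd
      unfold Wn
      exact h.step_low hwin R d (by omega) σ x y z

end Inv

open Vale.Agent.Lib.P328.helper74

/-- The property `Lor` of `helper74.ChainDefs` gives the invariant. -/
theorem inv_of_lor {m : ℕ} {w l q : ℤ → ℝ} (h : Lor m w l q) : Inv w l q (m : ℤ) := by
  obtain ⟨hpos, hw0, hl0, hq0, hmain⟩ := h
  refine ⟨Int.natCast_nonneg m, hpos, hw0, hl0, hq0, ?_⟩
  intro ρ x y z
  by_cases hin : 0 ≤ ρ ∧ ρ ≤ (m : ℤ)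
  · have hf : 0 ≤ Form w l q ρ y z := by
      unfold Form
      exact hmain ρ hin.1 hin.2 y z
    rw [form_eq w l q ρ x y z] at hf
    linarith
  · have hout : ρ < 0 ∨ (m : ℤ) < ρ := by
      by_contra hcon
      exact hin ⟨not_lt.mp (fun hlt => hcon (Or.inl hlt)),
        not_lt.mp (fun hlt => hcon (Or.inr hlt))⟩
    rw [hw0 ρ hout, zero_mul]
    exact sq_nonneg _

/-- The invariant gives the property `Lor` of `helper74.ChainDefs`. -/
theorem lor_of_inv {m : ℕ} {w l q : ℤ → ℝ} (h : Inv w l q (m : ℤ)) : Lor m w l q := by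
  refine ⟨h.pos, h.zw, h.zl, h.zq, ?_⟩
  intro ρ _ _ y z
  have hf := h.form_nonneg ρ y z
  unfold Form at hf
  exact hf

/-- The column step for the level sequences: `Lor` is preserved when a column of capacity
`C` and weight `t` is added. -/
theorem Lor_step {m : ℕ} {w l q : ℤ → ℝ} (h : Lor m w l q) (C : ℕ) (t : ℝ) :
    Lor (m + C) (addW C w) (addL C t w l) (addQ C t w l q) := by
  have h1 := (inv_of_lor h).step windowStmt C t
  have e : ((m + C : ℕ) : ℤ) = (m : ℤ) + (C : ℤ) := by push_cast; ring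
  rw [← e] at h1
  exact lor_of_inv h1

end Vale.Agent.Lib.P328.H93
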