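import Mathlib
import Vale.Agent.Lib.P328.helper74.ChainDefs
import Vale.Agent.Lib.P328.helper93.BoxLevels
import Vale.Agent.Lib.P328.helper93.LorStep

/-!
P328: the level sequences of every box satisfy `Lor`, and the resulting inequality
`w q ≤ l ^ 2` (the variance of the full-column statistic on a level of a box is at most the
weighted number of columns that are one unit below full).

* `lor_box` : `Lor (∑ j, c j) (wS c) (lS c s) (qS c s)` for every box `c` and weights `s`.
* `box_gamma` : `wS c ρ * qS c s ρ ≤ lS c s ρ ^ 2` for every integer level `ρ`.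
* `star_wlq` : the same inequality written with sums over the vectors of a natural-number
  level of the box.
-/

namespace Vale.Agent.Lib.P328.H93

open Finset
open Vale.Agent.Lib.P328.helper74

theorem wS_cons_fun {n : ℕ} (C : ℕ) (c : Fin n → ℕ) :
    wS (Fin.cons C c : Fin (n + 1) → ℕ) = addW C (wS c) := by
  funext r
  exact wS_cons C c r

theorem lS_cons_fun {n : ℕ} (C : ℕ) (c : Fin n → ℕ) (σ : ℝ) (s : Fin n → ℝ) :
    lS (Fin.cons C c : Fin (n + 1) → ℕ) (Fin.cons σ s : Fin (n + 1) → ℝ)
      = addL C σ (wS c) (lS c s) := by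
  funext r
  exact lS_cons C c σ s r

theorem qS_cons_fun {n : ℕ} (C : ℕ) (c : Fin n → ℕ) (σ : ℝ) (s : Fin n → ℝ) :
    qS (Fin.cons C c : Fin (n + 1) → ℕ) (Fin.cons σ s : Fin (n + 1) → ℝ)
      = addQ C σ (wS c) (lS c s) (qS c s) := by
  funext r
  exact qS_cons C c σ s r

/-- The box with no column. -/
theorem lev_zero (c : Fin 0 → ℕ) (ρ : ℤ) :
    lev c ρ = if ρ = 0 then {c} else ∅ := by
  ext u
  rw [mem_lev]
  have hu : u = c := Subsingleton.elim u c
  by_cases hρ : ρ = 0
  · simp [hρ, hu]
  · simp only [hρ, if_false, Finset.notMem_empty, iff_false]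
    intro h
    apply hρ
    rw [← h.2]
    simp

theorem lor_zero (c : Fin 0 → ℕ) (s : Fin 0 → ℝ) : Lor 0 (wS c) (lS c s) (qS c s) := by
  have hw : wS c = fun ρ => if ρ = 0 then (1 : ℝ) else 0 := by
    funext ρ
    unfold wS
    rw [lev_zero]
    by_cases hρ : ρ = 0
    · simp [hρ]
    · simp [hρ]
  have hl : lS c s = fun _ => 0 := by
    funext ρ
    unfold lS
    refine Finset.sum_eq_zero (fun u _ => ?_)
    unfold zs
    simp
  have hq : qS c s = fun _ => 0 := by
    funext ρ
    unfold qS
    refine Finset.sum_eq_zero (fun u _ => ?_)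
    unfold zs ds
    simp
  rw [hw, hl, hq]
  exact Lor_base

/-- The level sequences of every box satisfy `Lor`. -/
theorem lor_box : ∀ {n : ℕ} (c : Fin n → ℕ) (s : Fin n → ℝ),
    Lor (∑ j, c j) (wS c) (lS c s) (qS c s) := by
  intro n
  induction n with
  | zero =>
    intro c s
    have h := lor_zero c s
    simpa using h
  | succ n ih =>
    intro c s
    have h := Lor_step (ih (Fin.tail c) (Fin.tail s)) (c 0) (s 0)
    rw [← wS_cons_fun, ← lS_cons_fun, ← qS_cons_fun, Fin.cons_self_tail, Fin.cons_self_tail] at h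
    have hsum : ∑ j, c j = ∑ j, Fin.tail c j + c 0 := by
      rw [Fin.sum_univ_succ, add_comm]
      rfl
    rw [hsum]
    exact h

/-- On every level of a box: `w q ≤ l ^ 2`. -/
theorem box_gamma {n : ℕ} (c : Fin n → ℕ) (s : Fin n → ℝ) (ρ : ℤ) :
    wS c ρ * qS c s ρ ≤ lS c s ρ ^ 2 :=
  Lor_gamma (lor_box c s) ρ

theorem lev_nat {n : ℕ} (c : Fin n → ℕ) (ρ : ℕ) :
    lev c (ρ : ℤ)
      = (Fintype.piFinset fun j => Finset.range (c j + 1)).filter (fun u => ∑ j, u j = ρ) := by
  unfold lev box
  refine Finset.filter_congr (fun u _ => ?_)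
  rw [← Nat.cast_sum]
  exact Nat.cast_inj

/-- The inequality `w q ≤ l ^ 2` on a level of a box, with all sums written out: the number
of vectors `u ≤ c` with `∑ u = ρ`, times the sum over these vectors of
`(∑_{u j = c j} s j) ^ 2 - ∑_{u j + 1 = c j} s j ^ 2`, is at most the square of the sum of
`∑_{u j = c j} s j`. -/
theorem star_wlq {n : ℕ} (c : Fin n → ℕ) (ρ : ℕ) (s : Fin n → ℝ) :
    ((((Fintype.piFinset fun j => Finset.range (c j + 1)).filter
          (fun u => ∑ j, u j = ρ)).card : ℝ))
        * ∑ u ∈ (Fintype.piFinset fun j => Finset.range (c j + 1)).filter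
            (fun u => ∑ j, u j = ρ),
            ((∑ j, if u j = c j then s j else 0) ^ 2 - ∑ j, if u j + 1 = c j then s j ^ 2 else 0)
      ≤ (∑ u ∈ (Fintype.piFinset fun j => Finset.range (c j + 1)).filter
            (fun u => ∑ j, u j = ρ), ∑ j, if u j = c j then s j else 0) ^ 2 := by
  have h := box_gamma c s (ρ : ℤ)
  unfold wS lS qS zs ds at h
  rw [lev_nat] at h
  exact h

end Vale.Agent.Lib.P328.H93
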