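import Mathlib
import Vale.Agent.Lib.P328.helper1.LorCore

/-!
P328: the transfer step for functions on `ι → ℕ` (an independent proof of the statement
`lorF_transfer` for the definitions of `helper1/LorCore.lean`).

Part 1 is a statement about three functions of two natural variables along anti-diagonals,
obtained from the column step `Lor_step`.  Part 2 restricts a function on `ι → ℕ` to the
plane spanned by two coordinates `a`, `b` with a spectator vector `v`.
-/

namespace Vale.Agent.Lib.P328.NCq.H93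

open Finset
open Vale.Agent.Lib.P328.helper74
open Vale.Agent.Lib.P328.NCq

/-- The values of `g` on the anti-diagonal `i + j = M`, indexed by `j`, extended by zero. -/
noncomputable def lineSeq (g : ℕ → ℕ → ℝ) (M : ℕ) : ℤ → ℝ :=
  fun ρ => if 0 ≤ ρ ∧ ρ ≤ (M : ℤ) then g (M - ρ.toNat) ρ.toNat else 0

/-- Prefix sums along the anti-diagonal through `(i, j)`. -/
noncomputable def pre (g : ℕ → ℕ → ℝ) (i j : ℕ) : ℝ := ∑ k ∈ range (j + 1), g (i + k) (j - k)

theorem lineSeq_nat (g : ℕ → ℕ → ℝ) (M r : ℕ) (hr : r ≤ M) :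
    lineSeq g M (r : ℤ) = g (M - r) r := by
  unfold lineSeq
  rw [if_pos ⟨Int.natCast_nonneg r, by exact_mod_cast hr⟩, Int.toNat_natCast]

theorem lineSeq_out (g : ℕ → ℕ → ℝ) (M : ℕ) (ρ : ℤ) (h : ρ < 0 ∨ (M : ℤ) < ρ) :
    lineSeq g M ρ = 0 := by
  unfold lineSeq
  rw [if_neg]
  rintro ⟨h1, h2⟩
  rcases h with h | h <;> omega

theorem sum_lineSeq (g : ℕ → ℕ → ℝ) (M C r : ℕ) (hr : r ≤ M) (hC : r ≤ C) :
    ∑ k ∈ range (C + 1), lineSeq g M ((r : ℤ) - (k : ℤ)) = pre g (M - r) r := by
  unfold pre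
  have hsub : range (r + 1) ⊆ range (C + 1) := by
    intro k hk
    rw [mem_range] at hk ⊢
    omega
  rw [← Finset.sum_subset hsub]
  · refine Finset.sum_congr rfl (fun k hk => ?_)
    rw [mem_range] at hk
    have hk' : k ≤ r := by omega
    have e : (r : ℤ) - (k : ℤ) = ((r - k : ℕ) : ℤ) := by
      rw [Nat.cast_sub hk']
    rw [e, lineSeq_nat g M (r - k) (by omega)]
    congr 1
    omega
  · intro k _ hk
    rw [mem_range] at hk
    apply lineSeq_out
    left
    have : (r : ℤ) < (k : ℤ) := by exact_mod_cast (by omega : r < k)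
    omega

/-- The three anti-diagonal sequences satisfy `Lor`. -/
theorem lor_lineSeq (gw gl gq : ℕ → ℕ → ℝ) (hpos : ∀ i j, 0 < gw i j)
    (h : ∀ (i j : ℕ) (y z : ℝ),
      gw (i + 2) j * (y ^ 2 * gw i (j + 2) + 2 * y * z * gl i (j + 1) + z ^ 2 * gq i j)
        ≤ (y * gw (i + 1) (j + 1) + z * gl (i + 1) j) ^ 2) (M : ℕ) :
    Lor (M + 2) (lineSeq gw (M + 2)) (lineSeq gl (M + 1)) (lineSeq gq M) := by
  refine ⟨?_, ?_, ?_, ?_, ?_⟩
  · intro ρ h0 hm
    obtain ⟨r, rfl⟩ := Int.eq_ofNat_of_zero_le h0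
    have hr : r ≤ M + 2 := by exact_mod_cast hm
    rw [lineSeq_nat gw (M + 2) r hr]
    exact hpos _ _
  · intro ρ hρ
    exact lineSeq_out _ _ _ hρ
  · intro ρ hρ
    apply lineSeq_out
    rcases hρ with hρ | hρ
    · left; exact hρ
    · right; push_cast at hρ ⊢; omega
  · intro ρ hρ
    apply lineSeq_out
    rcases hρ with hρ | hρ
    · left; exact hρ
    · right; push_cast at hρ ⊢; omega
  · intro ρ h0 hm y z
    obtain ⟨r, rfl⟩ := Int.eq_ofNat_of_zero_le h0
    have hr : r ≤ M + 2 := by exact_mod_cast hm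
    have e1 : ((r : ℤ) + 1) = ((r + 1 : ℕ) : ℤ) := by push_cast; ring
    have e2 : ((r : ℤ) + 2) = ((r + 2 : ℕ) : ℤ) := by push_cast; ring
    rw [e1, e2]
    by_cases hrM : r ≤ M
    · -- interior level
      rw [lineSeq_nat gw (M + 2) r (by omega), lineSeq_nat gw (M + 2) (r + 1) (by omega),
        lineSeq_nat gw (M + 2) (r + 2) (by omega), lineSeq_nat gl (M + 1) r (by omega),
        lineSeq_nat gl (M + 1) (r + 1) (by omega), lineSeq_nat gq M r hrM]
      have hh := h (M - r) r y z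
      have a1 : M + 2 - r = M - r + 2 := by omega
      have a2 : M + 2 - (r + 1) = M - r + 1 := by omega
      have a3 : M + 2 - (r + 2) = M - r := by omega
      have a4 : M + 1 - r = M - r + 1 := by omega
      have a5 : M + 1 - (r + 1) = M - r := by omega
      rw [a1, a2, a3, a4, a5]
      nlinarith [hh]
    · by_cases hr1 : r = M + 1
      · subst hr1
        rw [lineSeq_out gw (M + 2) ((M + 1 + 2 : ℕ) : ℤ) (by right; push_cast; omega),
          lineSeq_out gl (M + 1) ((M + 1 + 1 : ℕ) : ℤ) (by right; push_cast; omega),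
          lineSeq_out gq M ((M + 1 : ℕ) : ℤ) (by right; push_cast; omega)]
        nlinarith [sq_nonneg (lineSeq gw (M + 2) ((M + 1 + 1 : ℕ) : ℤ) * y
          + lineSeq gl (M + 1) ((M + 1 : ℕ) : ℤ) * z)]
      · have hr2 : r = M + 2 := by omega
        subst hr2
        rw [lineSeq_out gw (M + 2) ((M + 2 + 1 : ℕ) : ℤ) (by right; push_cast; omega),
          lineSeq_out gw (M + 2) ((M + 2 + 2 : ℕ) : ℤ) (by right; push_cast; omega),
          lineSeq_out gl (M + 1) ((M + 2 : ℕ) : ℤ) (by right; push_cast; omega),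
          lineSeq_out gl (M + 1) ((M + 2 + 1 : ℕ) : ℤ) (by right; push_cast; omega),
          lineSeq_out gq M ((M + 2 : ℕ) : ℤ) (by right; push_cast; omega)]
        simp

/-- The two-variable form of the transfer step: the reverse Cauchy-Schwarz inequalities along
anti-diagonals are inherited by the prefix sums. -/
theorem line2D (gw gl gq : ℕ → ℕ → ℝ) (hpos : ∀ i j, 0 < gw i j)
    (h : ∀ (i j : ℕ) (y z : ℝ),
      gw (i + 2) j * (y ^ 2 * gw i (j + 2) + 2 * y * z * gl i (j + 1) + z ^ 2 * gq i j)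
        ≤ (y * gw (i + 1) (j + 1) + z * gl (i + 1) j) ^ 2) (i j : ℕ) (y z : ℝ) :
    pre gw (i + 2) j * (y ^ 2 * pre gw i (j + 2) + 2 * y * z * pre gl i (j + 1)
        + z ^ 2 * pre gq i j)
      ≤ (y * pre gw (i + 1) (j + 1) + z * pre gl (i + 1) j) ^ 2 := by
  have hL := lor_lineSeq gw gl gq hpos h (i + j)
  have hS := Lor_step hL (i + j + 2) 0
  obtain ⟨_, _, _, _, hmain⟩ := hS
  have hj := hmain (j : ℤ) (Int.natCast_nonneg j) (by push_cast; omega) y z
  have e1 : ((j : ℤ) + 1) = ((j + 1 : ℕ) : ℤ) := by push_cast; ring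
  have e2 : ((j : ℤ) + 2) = ((j + 2 : ℕ) : ℤ) := by push_cast; ring
  have w0 : addW (i + j + 2) (lineSeq gw (i + j + 2)) (j : ℤ) = pre gw (i + 2) j := by
    unfold addW
    rw [sum_lineSeq gw (i + j + 2) (i + j + 2) j (by omega) (by omega)]
    congr 1
    omega
  have w1 : addW (i + j + 2) (lineSeq gw (i + j + 2)) ((j : ℤ) + 1) = pre gw (i + 1) (j + 1) := by
    unfold addW
    rw [e1, sum_lineSeq gw (i + j + 2) (i + j + 2) (j + 1) (by omega) (by omega)]
    congr 1
    omega
  have w2 : addW (i + j + 2) (lineSeq gw (i + j + 2)) ((j : ℤ) + 2) = pre gw i (j + 2) := by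
    unfold addW
    rw [e2, sum_lineSeq gw (i + j + 2) (i + j + 2) (j + 2) (by omega) (by omega)]
    congr 1
    omega
  have l0 : addL (i + j + 2) 0 (lineSeq gw (i + j + 2)) (lineSeq gl (i + j + 1)) (j : ℤ)
      = pre gl (i + 1) j := by
    unfold addL
    rw [sum_lineSeq gl (i + j + 1) (i + j + 2) j (by omega) (by omega), zero_mul, add_zero]
    congr 1
    omega
  have l1 : addL (i + j + 2) 0 (lineSeq gw (i + j + 2)) (lineSeq gl (i + j + 1)) ((j : ℤ) + 1)
      = pre gl i (j + 1) := by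
    unfold addL
    rw [e1, sum_lineSeq gl (i + j + 1) (i + j + 2) (j + 1) (by omega) (by omega), zero_mul,
      add_zero]
    congr 1
    omega
  have q0 : addQ (i + j + 2) 0 (lineSeq gw (i + j + 2)) (lineSeq gl (i + j + 1))
      (lineSeq gq (i + j)) (j : ℤ) = pre gq i j := by
    unfold addQ
    rw [sum_lineSeq gq (i + j) (i + j + 2) j (by omega) (by omega)]
    have : i + j - j = i := by omega
    rw [this]
    ring
  rw [w0, w1, w2, l0, l1, q0] at hj
  nlinarith [hj]

/-! ### Part 2: restriction to two coordinates with a spectator vector -/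

variable {ι : Type*} [DecidableEq ι]

/-- The point with `a`-coordinate `i`, `b`-coordinate `j` and the coordinates of `γ`
elsewhere. -/
def pt (a b : ι) (γ : ι → ℕ) (i j : ℕ) : ι → ℕ := Function.update (Function.update γ b j) a i

theorem pt_a (a b : ι) (γ : ι → ℕ) (i j : ℕ) : pt a b γ i j a = i := by
  simp [pt]

theorem pt_b {a b : ι} (hab : a ≠ b) (γ : ι → ℕ) (i j : ℕ) : pt a b γ i j b = j := by
  simp [pt, Function.update_of_ne (Ne.symm hab)]

theorem pt_self (a b : ι) (γ : ι → ℕ) : pt a b γ (γ a) (γ b) = γ := by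
  simp [pt]

theorem transfer_pt {a b : ι} (hab : a ≠ b) (F : (ι → ℕ) → ℝ) (δ : ι → ℕ) (i j : ℕ) :
    transfer a b F (pt a b δ i j) = ∑ k ∈ range (j + 1), F (pt a b δ (i + k) (j - k)) := by
  unfold transfer
  rw [pt_b hab, pt_a]
  refine Finset.sum_congr rfl (fun k _ => ?_)
  congr 1
  funext x
  simp only [pt, Function.update_apply]
  split_ifs <;> rfl

theorem p_aa (a b : ι) (γ : ι → ℕ) (i j : ℕ) :
    pt a b γ i j + Pi.single a 1 + Pi.single a 1 = pt a b γ (i + 2) j := by
  funext x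
  simp only [pt, Pi.add_apply, Function.update_apply, Pi.single_apply]
  split_ifs <;> simp_all

theorem p_ab {a b : ι} (hab : a ≠ b) (γ : ι → ℕ) (i j : ℕ) :
    pt a b γ i j + Pi.single a 1 + Pi.single b 1 = pt a b γ (i + 1) (j + 1) := by
  funext x
  simp only [pt, Pi.add_apply, Function.update_apply, Pi.single_apply]
  split_ifs <;> simp_all

theorem p_bb {a b : ι} (hab : a ≠ b) (γ : ι → ℕ) (i j : ℕ) :
    pt a b γ i j + Pi.single b 1 + Pi.single b 1 = pt a b γ i (j + 2) := by
  funext x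
  simp only [pt, Pi.add_apply, Function.update_apply, Pi.single_apply]
  split_ifs <;> simp_all

theorem p_ad {a b d : ι} (hda : d ≠ a) (hdb : d ≠ b) (γ : ι → ℕ) (i j : ℕ) :
    pt a b γ i j + Pi.single a 1 + Pi.single d 1 = pt a b (γ + Pi.single d 1) (i + 1) j := by
  funext x
  simp only [pt, Pi.add_apply, Function.update_apply, Pi.single_apply]
  split_ifs <;> simp_all

theorem p_bd {a b d : ι} (hab : a ≠ b) (hda : d ≠ a) (hdb : d ≠ b) (γ : ι → ℕ) (i j : ℕ) :
    pt a b γ i j + Pi.single b 1 + Pi.single d 1 = pt a b (γ + Pi.single d 1) i (j + 1) := by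
  funext x
  simp only [pt, Pi.add_apply, Function.update_apply, Pi.single_apply]
  split_ifs <;> simp_all

theorem p_cd {a b c d : ι} (hca : c ≠ a) (hcb : c ≠ b) (hda : d ≠ a) (hdb : d ≠ b)
    (γ : ι → ℕ) (i j : ℕ) :
    pt a b γ i j + Pi.single c 1 + Pi.single d 1
      = pt a b (γ + Pi.single c 1 + Pi.single d 1) i j := by
  funext x
  simp only [pt, Pi.add_apply, Function.update_apply, Pi.single_apply]
  split_ifs <;> simp_all

variable [Fintype ι]

theorem bil_single_left (A : ι → ι → ℝ) (c0 : ι) (y : ι → ℝ) :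
    bil A (Pi.single c0 (1 : ℝ)) y = ∑ d, A c0 d * y d := by
  unfold bil
  rw [Finset.sum_eq_single c0]
  · simp
  · intro c _ hc
    simp [hc]
  · intro h
    exact absurd (mem_univ c0) h

theorem bil_single_single (A : ι → ι → ℝ) (c0 d0 : ι) :
    bil A (Pi.single c0 (1 : ℝ)) (Pi.single d0 (1 : ℝ)) = A c0 d0 := by
  rw [bil_single_left, Finset.sum_eq_single d0]
  · simp
  · intro d _ hd
    simp [hd]
  · intro h
    exact absurd (mem_univ d0) h

omit [DecidableEq ι] in
theorem bil_right_comb (A : ι → ι → ℝ) (x p r : ι → ℝ) (s t : ℝ) :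
    bil A x (fun c => s * p c + t * r c) = s * bil A x p + t * bil A x r := by
  simp only [bil, Finset.mul_sum, ← Finset.sum_add_distrib]
  refine Finset.sum_congr rfl (fun c _ => Finset.sum_congr rfl (fun d _ => ?_))
  ring

/-- The restriction of `Φ` to the plane of the coordinates `a`, `b` through `γ`. -/
def Gw (a b : ι) (γ : ι → ℕ) (Φ : (ι → ℕ) → ℝ) (i j : ℕ) : ℝ := Φ (pt a b γ i j)

/-- The first-order spectator sums. -/
def Gl (a b : ι) (γ : ι → ℕ) (v : ι → ℝ) (Φ : (ι → ℕ) → ℝ) (i j : ℕ) : ℝ :=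
  ∑ d, v d * Φ (pt a b (γ + Pi.single d 1) i j)

/-- The second-order spectator sums. -/
def Gq (a b : ι) (γ : ι → ℕ) (v : ι → ℝ) (Φ : (ι → ℕ) → ℝ) (i j : ℕ) : ℝ :=
  ∑ c, ∑ d, v c * v d * Φ (pt a b (γ + Pi.single c 1 + Pi.single d 1) i j)

section line

variable {a b : ι} (hab : a ≠ b) (γ : ι → ℕ) {v : ι → ℝ} (hva : v a = 0) (hvb : v b = 0)
  (Φ : (ι → ℕ) → ℝ) (i j : ℕ)

omit [Fintype ι] in
theorem hess_aa : hess Φ (pt a b γ i j) a a = Gw a b γ Φ (i + 2) j := by
  unfold hess Gw
  rw [p_aa]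

omit [Fintype ι] in
include hab in
theorem hess_ab : hess Φ (pt a b γ i j) a b = Gw a b γ Φ (i + 1) (j + 1) := by
  unfold hess Gw
  rw [p_ab hab]

omit [Fintype ι] in
include hab in
theorem hess_bb : hess Φ (pt a b γ i j) b b = Gw a b γ Φ i (j + 2) := by
  unfold hess Gw
  rw [p_bb hab]

include hab hva hvb in
theorem hess_av : ∑ d, hess Φ (pt a b γ i j) a d * v d = Gl a b γ v Φ (i + 1) j := by
  unfold Gl
  refine Finset.sum_congr rfl (fun d _ => ?_)
  by_cases hda : d = a
  · subst hda; rw [hva]; ring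
  · by_cases hdb : d = b
    · subst hdb; rw [hvb]; ring
    · unfold hess
      rw [p_ad hda hdb]
      ring

include hab hva hvb in
theorem hess_bv : ∑ d, hess Φ (pt a b γ i j) b d * v d = Gl a b γ v Φ i (j + 1) := by
  unfold Gl
  refine Finset.sum_congr rfl (fun d _ => ?_)
  by_cases hda : d = a
  · subst hda; rw [hva]; ring
  · by_cases hdb : d = b
    · subst hdb; rw [hvb]; ring
    · unfold hess
      rw [p_bd hab hda hdb]
      ring

include hab hva hvb in
theorem hess_vv : bil (hess Φ (pt a b γ i j)) v v = Gq a b γ v Φ i j := by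
  unfold Gq bil
  refine Finset.sum_congr rfl (fun c _ => Finset.sum_congr rfl (fun d _ => ?_))
  by_cases hca : c = a
  · subst hca; rw [hva]; ring
  · by_cases hcb : c = b
    · subst hcb; rw [hvb]; ring
    · by_cases hda : d = a
      · subst hda; rw [hva]; ring
      · by_cases hdb : d = b
        · subst hdb; rw [hvb]; ring
        · unfold hess
          rw [p_cd hca hcb hda hdb]
          ring

theorem bil_ea_ea :
    bil (hess Φ (pt a b γ i j)) (Pi.single a (1 : ℝ)) (Pi.single a (1 : ℝ))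
      = Gw a b γ Φ (i + 2) j := by
  rw [bil_single_single, hess_aa]

include hab hva hvb in
theorem bil_ea_U (y z : ℝ) :
    bil (hess Φ (pt a b γ i j)) (Pi.single a (1 : ℝ))
        (fun c => y * (Pi.single b (1 : ℝ) : ι → ℝ) c + z * v c)
      = y * Gw a b γ Φ (i + 1) (j + 1) + z * Gl a b γ v Φ (i + 1) j := by
  rw [bil_right_comb, bil_single_single, bil_single_left, hess_ab hab, hess_av hab γ hva hvb]

include hab hva hvb in
theorem bil_U_U (y z : ℝ) :
    bil (hess Φ (pt a b γ i j)) (fun c => y * (Pi.single b (1 : ℝ) : ι → ℝ) c + z * v c)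
        (fun c => y * (Pi.single b (1 : ℝ) : ι → ℝ) c + z * v c)
      = y ^ 2 * Gw a b γ Φ i (j + 2) + 2 * y * z * Gl a b γ v Φ i (j + 1)
        + z ^ 2 * Gq a b γ v Φ i j := by
  rw [bil_comb, bil_symm (hess_symm Φ _) v (Pi.single b (1 : ℝ)), bil_single_single,
    bil_single_left, hess_bb hab, hess_bv hab γ hva hvb, hess_vv hab γ hva hvb]
  ring

end line

omit [Fintype ι] in
theorem Gw_transfer {a b : ι} (hab : a ≠ b) (γ : ι → ℕ) (F : (ι → ℕ) → ℝ) (i j : ℕ) :
    Gw a b γ (transfer a b F) i j = pre (Gw a b γ F) i j := by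
  unfold Gw pre
  rw [transfer_pt hab]

theorem Gl_transfer {a b : ι} (hab : a ≠ b) (γ : ι → ℕ) (v : ι → ℝ) (F : (ι → ℕ) → ℝ)
    (i j : ℕ) : Gl a b γ v (transfer a b F) i j = pre (Gl a b γ v F) i j := by
  unfold Gl pre
  simp only [transfer_pt hab, Finset.mul_sum]
  rw [Finset.sum_comm]

theorem Gq_transfer {a b : ι} (hab : a ≠ b) (γ : ι → ℕ) (v : ι → ℝ) (F : (ι → ℕ) → ℝ)
    (i j : ℕ) : Gq a b γ v (transfer a b F) i j = pre (Gq a b γ v F) i j := by
  unfold Gq pre
  simp only [transfer_pt hab, Finset.mul_sum]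
  have h1 : ∀ c, ∑ d, ∑ k ∈ range (j + 1),
      v c * v d * F (pt a b (γ + Pi.single c 1 + Pi.single d 1) (i + k) (j - k))
      = ∑ k ∈ range (j + 1), ∑ d,
        v c * v d * F (pt a b (γ + Pi.single c 1 + Pi.single d 1) (i + k) (j - k)) :=
    fun c => Finset.sum_comm
  simp only [h1]
  exact Finset.sum_comm

/-- `LorF` is preserved by prefix sums along `e_b - e_a`. -/
theorem lorF_transfer (a b : ι) (hab : a ≠ b) (F : (ι → ℕ) → ℝ) (hF : LorF F) :
    LorF (transfer a b F) := by
  obtain ⟨hFpos, hFone⟩ := hF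
  have hTpos : ∀ p, 0 < transfer a b F p := by
    intro p
    unfold transfer
    exact Finset.sum_pos (fun k _ => hFpos _) ⟨0, by simp⟩
  refine ⟨hTpos, fun γ => ?_⟩
  have hsym := hess_symm (transfer a b F) γ
  -- vectors without `a`-component
  have key : ∀ (y : ℝ) (v : ι → ℝ), v a = 0 → v b = 0 →
      bil (hess (transfer a b F) γ) (Pi.single a (1 : ℝ)) (Pi.single a (1 : ℝ))
        * bil (hess (transfer a b F) γ) (fun c => y * (Pi.single b (1 : ℝ) : ι → ℝ) c + 1 * v c)
            (fun c => y * (Pi.single b (1 : ℝ) : ι → ℝ) c + 1 * v c)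
        ≤ bil (hess (transfer a b F) γ) (Pi.single a (1 : ℝ))
            (fun c => y * (Pi.single b (1 : ℝ) : ι → ℝ) c + 1 * v c) ^ 2 := by
    intro y v hva hvb
    have h1 := bil_ea_ea (a := a) (b := b) γ (transfer a b F) (γ a) (γ b)
    have h2 := bil_ea_U hab γ hva hvb (transfer a b F) (γ a) (γ b) y 1
    have h3 := bil_U_U hab γ hva hvb (transfer a b F) (γ a) (γ b) y 1
    rw [pt_self] at h1 h2 h3
    rw [h1, h2, h3]
    simp only [Gw_transfer hab, Gl_transfer hab, Gq_transfer hab]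
    refine line2D (Gw a b γ F) (Gl a b γ v F) (Gq a b γ v F) (fun i j => hFpos _) ?_
      (γ a) (γ b) y 1
    intro i j y' z'
    have hpos : 0 < bil (hess F (pt a b γ i j)) (Pi.single a (1 : ℝ)) (Pi.single a (1 : ℝ)) := by
      rw [bil_ea_ea]
      exact hFpos _
    have h4 := hFone (pt a b γ i j) (Pi.single a (1 : ℝ))
      (fun c => y' * (Pi.single b (1 : ℝ) : ι → ℝ) c + z' * v c) hpos
    rw [bil_ea_ea, bil_ea_U hab γ hva hvb, bil_U_U hab γ hva hvb] at h4
    exact h4
  refine onePos_of_rcs hsym (Pi.single a (1 : ℝ)) ?_ ?_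
  · have h1 := bil_ea_ea (a := a) (b := b) γ (transfer a b F) (γ a) (γ b)
    rw [pt_self] at h1
    rw [h1]
    exact hTpos _
  · intro u
    have hk := key (u b) (fun c => if c = a ∨ c = b then 0 else u c) (by simp) (by simp)
    have hu : u = fun c => u a * (Pi.single a (1 : ℝ) : ι → ℝ) c
        + 1 * (u b * (Pi.single b (1 : ℝ) : ι → ℝ) c
          + 1 * (if c = a ∨ c = b then 0 else u c)) := by
      funext c
      by_cases hca : c = a
      · subst hca
        simp [hab]
      · by_cases hcb : c = b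
        · subst hcb
          simp [hca]
        · simp [hca, hcb]
    set U : ι → ℝ := fun c => u b * (Pi.single b (1 : ℝ) : ι → ℝ) c
          + 1 * (if c = a ∨ c = b then 0 else u c) with hU
    have e1 := bil_comb (hess (transfer a b F) γ) (Pi.single a (1 : ℝ)) U (u a) 1 (u a) 1
    have e2 := bil_right_comb (hess (transfer a b F) γ) (Pi.single a (1 : ℝ))
      (Pi.single a (1 : ℝ)) U (u a) 1
    have e3 := bil_symm hsym U (Pi.single a (1 : ℝ))
    rw [hu, e1, e2, e3]
    nlinarith [hk]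

end Vale.Agent.Lib.P328.NCq.H93
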